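import Claimed.Agent.R254.Sparse.Ball
import Claimed.Agent.R254.Ker.H3

/-!
# R254 / Sparse / Main : THE SPARSE-BALL LEMMA (glue; architect helper65).

`∑_{a ∈ W} ∫_{B(a,R)} |ext φ g|³ ≤ C_ν R^ν (1 + #W R⁶ (1+S)^{-1/4}) ∫ |g|³`  for `S`-separated `W`, `R ≥ R₁`.
`er_ball` (each ball) + `er_H3` (sum over the family) with `r = r₀/R`.
-/

set_option autoImplicit false

namespace Claimed.Agent.R254

open MeasureTheory Metric Set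
open scoped ContDiff ENNReal ComplexConjugate RealInnerProductSpace

theorem er_sparse {φ : E2 → ℝ} {y₀ : E2} {ρ c G : ℝ} (h : ErLoc φ y₀ ρ c G)
    (hloc : LocEst φ y₀ (2 * ρ)) :
    ∃ R₁ : ℝ, 1 ≤ R₁ ∧ ∀ ν : ℝ, 0 < ν → ∃ C : ℝ, 0 ≤ C ∧ ∀ R : ℝ, R₁ ≤ R →
      ∀ (W : Finset E3) (S : ℝ), 0 ≤ S → (∀ a ∈ W, ∀ a' ∈ W, a ≠ a' → S ≤ dist a a') →
        ∀ g : E2 → ℂ, Dat y₀ ρ g →
          ∑ a ∈ W, ∫⁻ x in ball a R, ‖ext φ g x‖ₑ ^ (3 : ℝ) ≤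
            ENNReal.ofReal (C * R ^ ν * (1 + W.card * R ^ 6 * (1 + S) ^ (-(1 / 4 : ℝ)))) *
              ∫⁻ y, ‖g y‖ₑ ^ (3 : ℝ) := by
  obtain ⟨r₀, c₀, hr₀, hr₀1, hc₀, heta⟩ := er_eta
  obtain ⟨CH, hCH, hH⟩ := er_H3 h
  have hρ := h.hρ
  refine ⟨max 1 (2 * r₀ / ρ), le_max_left _ _, fun ν hν => ?_⟩
  obtain ⟨Cb, hCb, hb⟩ := er_ball h hloc hr₀ hc₀ heta ν hν
  refine ⟨Cb * CH * r₀⁻¹ ^ 6, by positivity, fun R hR W S hS hsep g hg => ?_⟩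
  have hR1 : 1 ≤ R := (le_max_left _ _).trans hR
  have hR0 : 0 < R := by linarith
  have hR2 : 2 * r₀ / ρ ≤ R := (le_max_right _ _).trans hR
  have hr : 0 < r₀ / R := by positivity
  have hrρ2 : r₀ / R ≤ ρ / 2 := by
    rw [div_le_iff₀ hR0]
    rw [div_le_iff₀ hρ] at hR2
    linarith
  have hrρ : r₀ / R ≤ ρ := by linarith
  have hS4 : 0 ≤ (1 + S) ^ (-(1 / 4 : ℝ)) := Real.rpow_nonneg (by linarith) _
  have hRν : 0 ≤ R ^ ν := Real.rpow_nonneg hR0.le _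
  calc ∑ a ∈ W, ∫⁻ x in ball a R, ‖ext φ g x‖ₑ ^ (3 : ℝ)
      ≤ ∑ a ∈ W, ENNReal.ofReal (Cb * R ^ ν * (r₀ / R) ^ 2) *
            ∫⁻ w : E2 × ℝ, ‖Hop φ (r₀ / R) a g w‖ₑ ^ (3 : ℝ) :=
        Finset.sum_le_sum fun a _ => hb R hR1 hrρ a g hg
    _ = ENNReal.ofReal (Cb * R ^ ν * (r₀ / R) ^ 2) *
          ∑ a ∈ W, ∫⁻ w : E2 × ℝ, ‖Hop φ (r₀ / R) a g w‖ₑ ^ (3 : ℝ) := by
        rw [Finset.mul_sum]
    _ ≤ ENNReal.ofReal (Cb * R ^ ν * (r₀ / R) ^ 2) *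
          (ENNReal.ofReal (CH * (r₀ / R)⁻¹ ^ 2 *
            (1 + W.card * (r₀ / R)⁻¹ ^ 6 * (1 + S) ^ (-(1 / 4 : ℝ)))) *
              ∫⁻ y, ‖g y‖ₑ ^ (3 : ℝ)) :=
        mul_le_mul_right (hH _ hr hrρ2 W S hS hsep g hg) _
    _ ≤ ENNReal.ofReal (Cb * CH * r₀⁻¹ ^ 6 * R ^ ν *
          (1 + W.card * R ^ 6 * (1 + S) ^ (-(1 / 4 : ℝ)))) * ∫⁻ y, ‖g y‖ₑ ^ (3 : ℝ) := by
        rw [← mul_assoc, ← ENNReal.ofReal_mul (by positivity)]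
        refine mul_le_mul_left (ENNReal.ofReal_le_ofReal ?_) _
        have h1 : (r₀ / R) ^ 2 * (r₀ / R)⁻¹ ^ 2 = 1 := by
          rw [← mul_pow, mul_inv_cancel₀ hr.ne', one_pow]
        have h2 : (r₀ / R)⁻¹ ^ 6 = r₀⁻¹ ^ 6 * R ^ 6 := by
          rw [inv_div, div_eq_mul_inv, mul_pow, mul_comm]
        have h3 : (1 : ℝ) ≤ r₀⁻¹ ^ 6 := one_le_pow₀ ((one_le_inv₀ hr₀).2 hr₀1)
        have h4 : 0 ≤ (W.card : ℝ) * R ^ 6 * (1 + S) ^ (-(1 / 4 : ℝ)) := by positivity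
        calc Cb * R ^ ν * (r₀ / R) ^ 2 * (CH * (r₀ / R)⁻¹ ^ 2 *
              (1 + W.card * (r₀ / R)⁻¹ ^ 6 * (1 + S) ^ (-(1 / 4 : ℝ))))
            = Cb * CH * R ^ ν * ((r₀ / R) ^ 2 * (r₀ / R)⁻¹ ^ 2) *
              (1 + r₀⁻¹ ^ 6 * (W.card * R ^ 6 * (1 + S) ^ (-(1 / 4 : ℝ)))) := by
              rw [h2]; ring
          _ = Cb * CH * R ^ ν *
              (1 + r₀⁻¹ ^ 6 * (W.card * R ^ 6 * (1 + S) ^ (-(1 / 4 : ℝ)))) := by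
              rw [h1, mul_one]
          _ ≤ Cb * CH * R ^ ν *
              (r₀⁻¹ ^ 6 * (1 + W.card * R ^ 6 * (1 + S) ^ (-(1 / 4 : ℝ)))) := by
              refine mul_le_mul_of_nonneg_left ?_ (by positivity)
              nlinarith
          _ = _ := by ring

end Claimed.Agent.R254
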