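import Claimed.Agent.R254.Ker.Ident
import Claimed.Agent.R254.Gen.Small

/-!
THIS FILE = PACKAGE E254-BALL (row 254, END254-B; architect helper65).  Mathlib only.
# One ball: `LocEst` applied to the slices of the localised datum.

`er_loc_translate`: `∫⁻_{ball a R} F(x) dx = ∫⁻_{ball 0 R} F(x + a) dx` (`lintegral_add_right_eq_self` on the indicator, or `MeasurePreserving.setLIntegral_comp_preimage` for `x ↦ x + a`),
`ext_translate`, `‖e(..) g‖ₑ = ‖g‖ₑ` (`ee_norm`), `Dat.ee_mul`, `Dat.memLp`.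
`er_ball`.  `r := r₀/R`, `I := Icc (-((1+G) r)) ((1+G) r)`, `H_t := fun y₁ => Hop φ r a g (y₁,t)`.  For `x ∈ ball a R`: `‖r • (x-a)‖ < r₀`, so
`c₀ ‖ext φ g x‖ ≤ ‖ext φ g x * eta (r•(x-a))‖ = ‖∫_t e(x₃ t) ext φ H_t x‖` (`er_ident`) `= ‖∫_{t ∈ I} ..‖` (`H_t = 0` for `t ∉ I` by `Hop_supp`, so `ext φ H_t x = 0`;
`setIntegral_eq_integral_of_forall_compl_eq_zero`), and `er_holder3` with `τ = volume.restrict I` (`τ univ = 2 (1+G) r`):
`c₀³ ‖ext φ g x‖ₑ³ ≤ (2(1+G) r)² ∫⁻_{t∈I} ‖ext φ H_t x‖ₑ³`.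
Integrate over `x ∈ ball a R`; Tonelli (`lintegral_lintegral_swap`; joint measurability of `(x,t) ↦ ext φ H_t x`: `StronglyMeasurable.integral_prod_right` for the measurable integrand
`((x,t),y₁) ↦ e(ph φ x y₁) Hop φ r a g (y₁,t)`, `ph_continuous`, `Hop_measurable`); `er_loc_translate` with `Hop_dat` for every `t`;
`∫⁻_t ∫⁻_{y₁} ‖Hop (y₁,t)‖ₑ³ = ∫⁻_w` (`lintegral_prod_symm`/`lintegral_prod`, `Measure.volume_eq_prod`).     `C := c₀⁻³ (2(1+G))² C_ν`.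
-/

set_option autoImplicit false

namespace Claimed.Agent.R254

open MeasureTheory Metric Set
open scoped ContDiff ENNReal ComplexConjugate RealInnerProductSpace

theorem er_loc_translate {φ : E2 → ℝ} (hφ : Continuous φ) {y₀ : E2} {ρ' : ℝ}
    (hloc : LocEst φ y₀ ρ') :
    ∀ ν : ℝ, 0 < ν → ∃ C : ℝ, 0 ≤ C ∧ ∀ R : ℝ, 1 ≤ R → ∀ (a : E3) (g : E2 → ℂ), Dat y₀ ρ' g →
      ∫⁻ x in ball a R, ‖ext φ g x‖ₑ ^ (3 : ℝ) ≤
        ENNReal.ofReal (C * R ^ ν) * ∫⁻ y, ‖g y‖ₑ ^ (3 : ℝ) := by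
  intro ν hν
  obtain ⟨C, hC, hh⟩ := hloc ν hν
  refine ⟨C, hC, fun R hR a g hg => ?_⟩
  have hg' := hg.ee_mul hφ a
  have h1 := hh R hR _ (hg'.memLp 3) hg'.supp
  have hmeas : Measurable fun x : E3 => ‖ext φ g x‖ₑ ^ (3 : ℝ) :=
    ((ext_continuous hφ hg.integrable).measurable.enorm).pow_const _
  have h2 : ∫⁻ x in ball a R, ‖ext φ g x‖ₑ ^ (3 : ℝ) =
      ∫⁻ x in ball (0 : E3) R, ‖ext φ (fun y => ee (ph φ a y) * g y) x‖ₑ ^ (3 : ℝ) := by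
    simp_rw [← ext_translate]
    have h3 := (measurePreserving_add_right (volume : Measure E3) a).setLIntegral_comp_preimage
      (measurableSet_ball (x := a) (ε := R)) hmeas
    rw [← h3]
    congr 2
    ext x
    simp [mem_ball, dist_eq_norm]
  have h4 : ∫⁻ y, ‖ee (ph φ a y) * g y‖ₑ ^ (3 : ℝ) = ∫⁻ y, ‖g y‖ₑ ^ (3 : ℝ) := by
    refine lintegral_congr fun y => ?_
    rw [enorm_mul, ← ofReal_norm (ee _), ee_norm, ENNReal.ofReal_one, one_mul]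
  rw [h2, ← h4]
  exact h1

theorem er_ball {φ : E2 → ℝ} {y₀ : E2} {ρ c G : ℝ} (h : ErLoc φ y₀ ρ c G)
    (hloc : LocEst φ y₀ (2 * ρ)) {r₀ c₀ : ℝ} (hr₀ : 0 < r₀) (hc₀ : 0 < c₀)
    (heta : ∀ x : E3, ‖x‖ ≤ r₀ → c₀ ≤ ‖eta x‖) :
    ∀ ν : ℝ, 0 < ν → ∃ C : ℝ, 0 ≤ C ∧ ∀ R : ℝ, 1 ≤ R → r₀ / R ≤ ρ →
      ∀ (a : E3) (g : E2 → ℂ), Dat y₀ ρ g →
        ∫⁻ x in ball a R, ‖ext φ g x‖ₑ ^ (3 : ℝ) ≤
          ENNReal.ofReal (C * R ^ ν * (r₀ / R) ^ 2) *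
            ∫⁻ w : E2 × ℝ, ‖Hop φ (r₀ / R) a g w‖ₑ ^ (3 : ℝ) := by
  intro ν hν
  have hφ : Continuous φ := h.smooth.continuous
  have hG := h.hG
  obtain ⟨Cν, hCν, hL⟩ := er_loc_translate hφ hloc ν hν
  refine ⟨c₀⁻¹ ^ 3 * (2 * (1 + G)) ^ 2 * Cν, by positivity, fun R hR hrρ a g hg => ?_⟩
  have hR0 : 0 < R := by linarith
  set r := r₀ / R with hrdef
  have hr : 0 < r := by positivity
  set I : Set ℝ := Icc (-((1 + G) * r)) ((1 + G) * r) with hI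
  have hIvol : volume I = ENNReal.ofReal (2 * (1 + G) * r) := by
    rw [hI, Real.volume_Icc]
    congr 1
    ring
  have hzero : ∀ t, t ∉ I → ∀ x, ext φ (fun y₁ => Hop φ r a g (y₁, t)) x = 0 := by
    intro t ht x
    have h0 : (fun y₁ => Hop φ r a g (y₁, t)) = fun _ => (0 : ℂ) := by
      funext y₁
      by_contra hne
      have := (Hop_supp h hr hrρ a hg hne).2
      exact ht (abs_le.1 this)
    rw [h0]
    simp [ext]
  have hpt : ∀ x ∈ ball a R, ‖ext φ g x‖ₑ ^ (3 : ℝ) ≤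
      ENNReal.ofReal (c₀⁻¹ ^ 3 * (2 * (1 + G) * r) ^ 2) *
        ∫⁻ t in I, ‖ext φ (fun y₁ => Hop φ r a g (y₁, t)) x‖ₑ ^ (3 : ℝ) := by
    intro x hx
    rw [mem_ball, dist_eq_norm] at hx
    have hn : ‖r • (x - a)‖ ≤ r₀ := by
      rw [norm_smul, Real.norm_of_nonneg hr.le]
      calc r * ‖x - a‖ ≤ r * R := by gcongr
        _ = r₀ := by rw [hrdef]; field_simp
    have he := heta _ hn
    have hid := er_ident h hr hrρ a x hg
    have h1 : ‖ext φ g x‖ ≤ c₀⁻¹ * ‖ext φ g x * eta (r • (x - a))‖ := by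
      rw [norm_mul]
      have : 1 ≤ c₀⁻¹ * ‖eta (r • (x - a))‖ := by
        rw [inv_mul_eq_div, one_le_div hc₀]
        exact he
      calc ‖ext φ g x‖ = ‖ext φ g x‖ * 1 := (mul_one _).symm
        _ ≤ ‖ext φ g x‖ * (c₀⁻¹ * ‖eta (r • (x - a))‖) := by gcongr
        _ = _ := by ring
    have h2 : ‖ext φ g x‖ₑ ≤ ENNReal.ofReal c₀⁻¹ * ‖ext φ g x * eta (r • (x - a))‖ₑ := by
      rw [← ofReal_norm (ext φ g x), ← ofReal_norm (ext φ g x * eta (r • (x - a))),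
        ← ENNReal.ofReal_mul (by positivity)]
      exact ENNReal.ofReal_le_ofReal h1
    have h3 : ext φ g x * eta (r • (x - a)) =
        ∫ t in I, ee (x 2 * t) * ext φ (fun y₁ => Hop φ r a g (y₁, t)) x := by
      rw [hid]
      refine (setIntegral_eq_integral_of_forall_compl_eq_zero fun t ht => ?_).symm
      rw [hzero t ht x, mul_zero]
    have h4 := er_holder3 (volume.restrict I)
      (fun t => ee (x 2 * t) * ext φ (fun y₁ => Hop φ r a g (y₁, t)) x)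
    rw [Measure.restrict_apply_univ, hIvol, ← h3] at h4
    have h5 : ∀ t, ‖ee (x 2 * t) * ext φ (fun y₁ => Hop φ r a g (y₁, t)) x‖ₑ =
        ‖ext φ (fun y₁ => Hop φ r a g (y₁, t)) x‖ₑ := by
      intro t
      rw [enorm_mul, ← ofReal_norm (ee _), ee_norm, ENNReal.ofReal_one, one_mul]
    simp_rw [h5] at h4
    calc ‖ext φ g x‖ₑ ^ (3 : ℝ)
        ≤ (ENNReal.ofReal c₀⁻¹ * ‖ext φ g x * eta (r • (x - a))‖ₑ) ^ (3 : ℝ) :=
          ENNReal.rpow_le_rpow h2 (by norm_num)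
      _ = ENNReal.ofReal (c₀⁻¹ ^ 3) * ‖ext φ g x * eta (r • (x - a))‖ₑ ^ (3 : ℝ) := by
          rw [ENNReal.mul_rpow_of_nonneg _ _ (by norm_num : (0 : ℝ) ≤ 3),
            ENNReal.ofReal_rpow_of_nonneg (by positivity) (by norm_num)]
          congr 2
          exact_mod_cast Real.rpow_natCast c₀⁻¹ 3
      _ ≤ ENNReal.ofReal (c₀⁻¹ ^ 3) * (ENNReal.ofReal (2 * (1 + G) * r) ^ (2 : ℝ) *
            ∫⁻ t in I, ‖ext φ (fun y₁ => Hop φ r a g (y₁, t)) x‖ₑ ^ (3 : ℝ)) :=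
          mul_le_mul_right h4 _
      _ = _ := by
          rw [← mul_assoc, ENNReal.ofReal_rpow_of_nonneg (by positivity) (by norm_num),
            ← ENNReal.ofReal_mul (by positivity)]
          congr 3
          exact_mod_cast Real.rpow_natCast (2 * (1 + G) * r) 2
  have hmeasF : Measurable fun p : E3 × ℝ => ext φ (fun y₁ => Hop φ r a g (y₁, p.2)) p.1 := by
    have hf : Measurable fun q : (E3 × ℝ) × E2 =>
        ee (ph φ q.1.1 q.2) * Hop φ r a g (q.2, q.1.2) := by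
      refine Measurable.mul ?_ ?_
      · exact ((ee_continuous.comp (ph_continuous hφ)).measurable).comp
          (by fun_prop : Measurable fun q : (E3 × ℝ) × E2 => (q.1.1, q.2))
      · exact (Hop_measurable hφ r a hg.meas).comp
          (by fun_prop : Measurable fun q : (E3 × ℝ) × E2 => (q.2, q.1.2))
    exact (hf.stronglyMeasurable.integral_prod_right (ν := (volume : Measure E2))).measurable
  have hHm : Measurable fun w : E2 × ℝ => ‖Hop φ r a g w‖ₑ ^ (3 : ℝ) :=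
    ((Hop_measurable hφ r a hg.meas).enorm).pow_const _
  calc ∫⁻ x in ball a R, ‖ext φ g x‖ₑ ^ (3 : ℝ)
      ≤ ∫⁻ x in ball a R, ENNReal.ofReal (c₀⁻¹ ^ 3 * (2 * (1 + G) * r) ^ 2) *
          ∫⁻ t in I, ‖ext φ (fun y₁ => Hop φ r a g (y₁, t)) x‖ₑ ^ (3 : ℝ) :=
        setLIntegral_mono' measurableSet_ball hpt
    _ = ENNReal.ofReal (c₀⁻¹ ^ 3 * (2 * (1 + G) * r) ^ 2) * ∫⁻ x in ball a R,
          ∫⁻ t in I, ‖ext φ (fun y₁ => Hop φ r a g (y₁, t)) x‖ₑ ^ (3 : ℝ) :=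
        lintegral_const_mul' _ _ ENNReal.ofReal_ne_top
    _ = ENNReal.ofReal (c₀⁻¹ ^ 3 * (2 * (1 + G) * r) ^ 2) * ∫⁻ t in I,
          ∫⁻ x in ball a R, ‖ext φ (fun y₁ => Hop φ r a g (y₁, t)) x‖ₑ ^ (3 : ℝ) := by
        rw [lintegral_lintegral_swap
          (f := fun (x : E3) (t : ℝ) => ‖ext φ (fun y₁ => Hop φ r a g (y₁, t)) x‖ₑ ^ (3 : ℝ))
          ((hmeasF.enorm.pow_const _).aemeasurable)]
    _ ≤ ENNReal.ofReal (c₀⁻¹ ^ 3 * (2 * (1 + G) * r) ^ 2) * ∫⁻ t in I,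
          ENNReal.ofReal (Cν * R ^ ν) * ∫⁻ y, ‖Hop φ r a g (y, t)‖ₑ ^ (3 : ℝ) := by
        refine mul_le_mul_right (lintegral_mono fun t => ?_) _
        exact hL R hR a _ (Hop_dat h hr hrρ a hg t)
    _ ≤ ENNReal.ofReal (c₀⁻¹ ^ 3 * (2 * (1 + G) * r) ^ 2) * ∫⁻ t,
          ENNReal.ofReal (Cν * R ^ ν) * ∫⁻ y, ‖Hop φ r a g (y, t)‖ₑ ^ (3 : ℝ) :=
        mul_le_mul_right (lintegral_mono' Measure.restrict_le_self le_rfl) _
    _ = ENNReal.ofReal (c₀⁻¹ ^ 3 * (2 * (1 + G) * r) ^ 2) * (ENNReal.ofReal (Cν * R ^ ν) *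
          ∫⁻ w : E2 × ℝ, ‖Hop φ r a g w‖ₑ ^ (3 : ℝ)) := by
        rw [lintegral_const_mul' _ _ ENNReal.ofReal_ne_top, Measure.volume_eq_prod,
          lintegral_prod_symm _ hHm.aemeasurable]
    _ = ENNReal.ofReal (c₀⁻¹ ^ 3 * (2 * (1 + G)) ^ 2 * Cν * R ^ ν * r ^ 2) *
          ∫⁻ w : E2 × ℝ, ‖Hop φ r a g w‖ₑ ^ (3 : ℝ) := by
        rw [← mul_assoc, ← ENNReal.ofReal_mul (by positivity)]
        congr 2
        ring

end Claimed.Agent.R254
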